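import Vale.Agent.Lib.P113.Assemble
import Vale.Agent.Lib.P113.BumpComp

/-!
# P113: halting detection by particle trajectories of forced Navier-Stokes flows from rest

The answer to Q1 is yes: for every computable `ν > 0` the statement `HaltingDetection ν` holds.
-/

open Vale.Agent.Lib.P113 in
/-- For every computable `ν > 0` there are a point `a*` (the origin), an open subset `O` of the
torus and a force compiler as in Q1. -/
theorem Vale.Agent.Results.P113.A_main.result (ν : ℝ) (hν : 0 < ν) (hc : IsComputableReal ν) :
    HaltingDetection ν :=
  haltingDetection_of compR_stepDeriv hν hc
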